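import Vale.Agent.P319.S2.H323.Phase
import Vale.Agent.P319.S2.H920.Spec

/-! P319, exponent `1/2`: piece A8 PHASE. -/

namespace Vale.Agent.P319.S2.PH

open Finset Vale.Agent.P319.SC Vale.Agent.P319.SC.H323 Vale.Agent.P319.S2 Vale.Agent.P319.S2.H920

set_option linter.all false

variable {V ι : Type} [Fintype V] [DecidableEq V] [DecidableEq ι] {m : ℕ}

theorem hv_of_heavy {X : Finset V} {G : ℕ} {𝒟 : Cfg V ι m} (h : Heavy X G 𝒟) : Hv X G 𝒟 :=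
  fun a ha z _ he hne => (h a ha z he.symm hne.symm).le

theorem ah_of {X : Finset V} {G N : ℕ} (𝒞 : Cfg V ι m)
    (hno : ∀ (s l : ℕ) (ℱ : Cfg V ι (l + 1)) (x : V), s ≤ N → Over X 𝒞 s (l + 1) ℱ →
      Heavy X G ℱ → x ∈ X → Heavy X G (ℱ.fix x)) :
    ∀ (d s l : ℕ) (ℱ : Cfg V ι l), Over X 𝒞 s l ℱ → Heavy X G ℱ → s + d ≤ N → AH X G d l ℱ := by
  intro d
  induction d with
  | zero =>
    intro s l ℱ _ hH _
    cases l <;> exact hv_of_heavy hH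
  | succ d ih =>
    intro s l ℱ hO hH hs
    cases l with
    | zero => exact hv_of_heavy hH
    | succ l =>
      exact ⟨hv_of_heavy hH, fun x hx => ih (s + 1) l (ℱ.fix x) (Over.fix hO hx)
        (hno s l ℱ x (by omega) hO hH hx) (by omega)⟩

/-- **A8 PHASE** -/
theorem phaseStmt (hCore : CoreStmt) (hD : DegStmt) : PhaseStmt := by
  intro V ι _ _ _ G m 𝒞 ρ hG hm h2 hH
  by_contra hcon
  have hno : ∀ (s l : ℕ) (ℱ : Cfg V ι (l + 1)) (x : V), s ≤ 4 * G + 10 →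
      Over (𝒞.cls ρ) 𝒞 s (l + 1) ℱ → Heavy (𝒞.cls ρ) G ℱ → x ∈ 𝒞.cls ρ →
      Heavy (𝒞.cls ρ) G (ℱ.fix x) := by
    intro s l ℱ x hs hO hF hx
    by_contra hc
    exact hcon ⟨s, l, ℱ, x, hs, hO, hF, hx, hc⟩
  have hA := ah_of 𝒞 hno (4 * G + 8) 0 m 𝒞 Over.refl hH (by omega)
  obtain ⟨x, hx⟩ := card_pos.1 (show 0 < (𝒞.cls ρ).card by omega)
  have hxρ := (𝒞.mem_cls _ _).1 hx
  refine phase hCore hD (by omega) 𝒞 (X := 𝒞.cls ρ) ?_ (by omega) hA hx (by rw [hxρ]; exact h2)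
  intro a b hab ha
  rw [𝒞.mem_cls] at ha ⊢
  rw [← hab, ha]

end Vale.Agent.P319.S2.PH
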