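import Vale.Agent.P319.S2.Iface
import Vale.Agent.P319.SC.H323.Main23

/-! P319, block S2: if all colours stay heavy, there is a contradiction with CORE. -/

namespace Vale.Agent.P319.S2.PH

open Finset Vale.Agent.P319.SC Vale.Agent.P319.SC.H323 Vale.Agent.P319.S2

set_option linter.all false

variable {V ι : Type} [Fintype V] [DecidableEq V] [DecidableEq ι] {m : ℕ}

/-- all nondiagonal colours inside a class of points of `X` have density at least `2 ^ (-G)` -/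
def Hv (X : Finset V) (G : ℕ) (𝒟 : Cfg V ι m) : Prop :=
  ∀ a ∈ X, ∀ z ∈ X, 𝒟.c1 a = 𝒟.c1 z → a ≠ z →
    (𝒟.cls (𝒟.c1 a)).card ≤ 2 ^ G * 𝒟.val a (𝒟.c2 a z)

/-- … over all bases of at most `d` points of `X` -/
def AH (X : Finset V) (G : ℕ) : (d m : ℕ) → Cfg V ι m → Prop
  | 0, _, 𝒟 => Hv X G 𝒟
  | _ + 1, 0, 𝒟 => Hv X G 𝒟
  | d + 1, m + 1, 𝒟 => Hv X G 𝒟 ∧ ∀ x ∈ X, AH X G d m (𝒟.fix x)

theorem AH.hv {X : Finset V} {G d : ℕ} {𝒟 : Cfg V ι m} (h : AH X G d m 𝒟) : Hv X G 𝒟 := by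
  cases d with
  | zero => cases m <;> exact h
  | succ d => cases m with
    | zero => exact h
    | succ m => exact h.1

theorem AH.pred {X : Finset V} {G : ℕ} : ∀ {d m : ℕ} {𝒟 : Cfg V ι m}, AH X G (d + 1) m 𝒟 →
    AH X G d m 𝒟 := by
  intro d
  induction d with
  | zero =>
    intro m 𝒟 h
    have := h.hv
    cases m <;> exact this
  | succ d ih =>
    intro m 𝒟 h
    cases m with
    | zero => exact h
    | succ m => exact ⟨h.1, fun x hx => ih (h.2 x hx)⟩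

theorem AH.mono {X : Finset V} {G : ℕ} {d d' m : ℕ} {𝒟 : Cfg V ι m} (hd : d ≤ d')
    (h : AH X G d' m 𝒟) : AH X G d m 𝒟 := by
  obtain ⟨e, rfl⟩ : ∃ e, d' = d + e := ⟨d' - d, by omega⟩
  clear hd
  induction e with
  | zero => exact h
  | succ e ih => exact ih (AH.pred h)

/-- `X` is a union of classes -/
def Closed (X : Finset V) (𝒟 : Cfg V ι m) : Prop := ∀ a b, 𝒟.c1 a = 𝒟.c1 b → a ∈ X → b ∈ X

theorem Closed.fix {X : Finset V} {𝒟 : Cfg V ι (m + 1)} (hm : 1 ≤ m) (h : Closed X 𝒟) (x : V) :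
    Closed X (𝒟.fix x) := by
  intro a b hab ha
  rw [𝒟.fix_c1 hm, 𝒟.fix_c1 hm] at hab
  exact h a b (𝒟.c1_of_c2 (by omega) hab).2 ha

theorem rank_le {X : Finset V} {G : ℕ} {𝒟 : Cfg V ι m} (hm : 2 ≤ m) (h : Hv X G 𝒟)
    (hX : Closed X 𝒟) {a : V} (ha : a ∈ X) : (𝒟.rels (𝒟.c1 a) (𝒟.c1 a)).card ≤ 2 ^ G + 1 := by
  have hd : 𝒟.c2 a a ∈ 𝒟.rels (𝒟.c1 a) (𝒟.c1 a) := (𝒟.mem_rels _ _ _).2 ⟨a, a, rfl, rfl, rfl⟩
  have h1 : ((𝒟.rels (𝒟.c1 a) (𝒟.c1 a)).erase (𝒟.c2 a a)).card * (𝒟.cls (𝒟.c1 a)).card ≤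
      2 ^ G * (𝒟.cls (𝒟.c1 a)).card := by
    rw [← smul_eq_mul]
    calc ((𝒟.rels (𝒟.c1 a) (𝒟.c1 a)).erase (𝒟.c2 a a)).card • (𝒟.cls (𝒟.c1 a)).card
        ≤ ∑ T ∈ (𝒟.rels (𝒟.c1 a) (𝒟.c1 a)).erase (𝒟.c2 a a), 2 ^ G * 𝒟.val a T := by
          refine Finset.card_nsmul_le_sum _ _ _ fun T hT => ?_
          obtain ⟨z, hz, rfl⟩ := 𝒟.exists_of_mem_rels (by omega) a (mem_of_mem_erase hT)
          have hne : a ≠ z := by
            rintro rfl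
            exact ne_of_mem_erase hT rfl
          exact h a ha z (hX a z hz.symm ha) hz.symm hne
      _ = 2 ^ G * ∑ T ∈ (𝒟.rels (𝒟.c1 a) (𝒟.c1 a)).erase (𝒟.c2 a a), 𝒟.val a T := by
          rw [Finset.mul_sum]
      _ ≤ 2 ^ G * (𝒟.cls (𝒟.c1 a)).card := by
          refine Nat.mul_le_mul_left _ ?_
          rw [Gro.card_cls 𝒟 hm (v := a) rfl]
          exact Finset.sum_le_sum_of_subset (erase_subset _ _)
  have h2 : 0 < (𝒟.cls (𝒟.c1 a)).card := card_pos.2 ⟨a, (𝒟.mem_cls _ _).2 rfl⟩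
  have h3 := Nat.le_of_mul_le_mul_right h1 h2
  rw [card_erase_of_mem hd] at h3
  omega

theorem rb_of_ah {X : Finset V} {G M : ℕ} (hM : 2 ≤ M) : ∀ (j : ℕ) (𝒟 : Cfg V ι (M + j)),
    AH X G j (M + j) 𝒟 → Closed X 𝒟 → RB X (2 ^ G + 1) M j 𝒟 := by
  intro j
  induction j with
  | zero =>
    intro 𝒟 h hX a ha
    exact rank_le (by omega) h.hv hX ha
  | succ j ih =>
    intro 𝒟 h hX
    exact ⟨fun a ha => rank_le (by omega) h.hv hX ha, fun x hx => ih (𝒟.fix x)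
      (h.2 x hx) (Closed.fix (m := M + j) (by omega) hX x)⟩


theorem AH.subset {G : ℕ} {X Y : Finset V} (hXY : Y ⊆ X) : ∀ {d m : ℕ} {𝒟 : Cfg V ι m},
    AH X G d m 𝒟 → AH Y G d m 𝒟 := by
  have hv : ∀ {m : ℕ} {𝒟 : Cfg V ι m}, Hv X G 𝒟 → Hv Y G 𝒟 := fun h a ha z hz he hne =>
    h a (hXY ha) z (hXY hz) he hne
  intro d
  induction d with
  | zero =>
    intro m 𝒟 h
    cases m <;> exact hv h
  | succ d ih =>
    intro m 𝒟 h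
    cases m with
    | zero => exact hv h
    | succ m => exact ⟨hv h.1, fun x hx => ih (h.2 x (hXY hx))⟩

/-- **PHASE**: the stages -/
theorem phase_aux (hCore : CoreStmt) (hD : DegStmt) {G : ℕ} (hG : 1 ≤ G) :
    ∀ (s m : ℕ) (𝒞 : Cfg V ι m) (X : Finset V) (x₀ : V) (i : ℕ),
      1001 * G + 10013 + s ≤ m → AH X G (G + 8 + s) m 𝒞 → Closed X 𝒞 → x₀ ∈ X →
      2 ≤ (𝒞.cls (𝒞.c1 x₀)).card → i + s = 3 * G →
      3 * 4 ^ i ≤ 3 ^ i * (𝒞.rels (𝒞.c1 x₀) (𝒞.c1 x₀)).card → False := by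
  intro s
  induction s with
  | zero =>
    intro m 𝒞 X x₀ i hm hA hX hx₀ h2 hi hr
    have hrG := rank_le (by omega) hA.hv hX hx₀
    have hi4 : i = 3 * G := by omega
    have e1 : 3 * 4 ^ (3 * G) ≤ 3 ^ (3 * G) * (2 ^ G + 1) := by
      rw [hi4] at hr
      exact hr.trans (Nat.mul_le_mul_left _ hrG)
    have e2 : 3 ^ (3 * G) * (2 ^ G + 1) = 54 ^ G + 27 ^ G := by
      rw [mul_add, mul_one, pow_mul, ← mul_pow]
      norm_num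
    have e3 : 4 ^ (3 * G) = 64 ^ G := by rw [pow_mul]; norm_num
    have e4 : 54 ^ G ≤ 64 ^ G := Nat.pow_le_pow_left (by norm_num) _
    have e5 : 27 ^ G ≤ 64 ^ G := Nat.pow_le_pow_left (by norm_num) _
    have e6 : 0 < 64 ^ G := Nat.pow_pos (by norm_num)
    rw [e2, e3] at e1
    omega
  | succ s ih =>
  intro m 𝒞 X x₀ i hm hA hX hx₀ h2 hi hr
  have hrG := rank_le (by omega) hA.hv hX hx₀
  set n := (𝒞.cls (𝒞.c1 x₀)).card with hn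
  set r := (𝒞.rels (𝒞.c1 x₀) (𝒞.c1 x₀)).card with hrdef
  have hval : ∀ v w, 𝒞.c1 v = 𝒞.c1 x₀ → 𝒞.c1 w = 𝒞.c1 x₀ → v ≠ w →
      n ≤ 2 ^ G * 𝒞.val v (𝒞.c2 v w) := by
    intro v w hv hw hvw
    have := hA.hv v (hX _ _ hv.symm hx₀) w (hX _ _ hw.symm hx₀) (hv.trans hw.symm) hvw
    rwa [hv] at this
  obtain ⟨z₀, hz₀', hne'⟩ := Finset.exists_mem_ne (show 1 < (𝒞.cls (𝒞.c1 x₀)).card by omega) x₀
  have hz₀ : 𝒞.c1 z₀ = 𝒞.c1 x₀ := (𝒞.mem_cls _ _).1 hz₀'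
  have hne : x₀ ≠ z₀ := hne'.symm
  -- the colours occur
  have hDbig : BigRank 𝒞 (2 ^ (m - 5)) := bigRank_of hD (by omega) 𝒞
  have hpow : 4 * (2 ^ G) ^ 3 < 2 ^ (m - 5) := by
    rw [← pow_mul, show (4 : ℕ) = 2 ^ 2 by norm_num, ← pow_add]
    exact Nat.pow_lt_pow_right (by norm_num) (by omega)
  have hocc : ∀ w₀, 𝒞.c1 w₀ = 𝒞.c1 x₀ → x₀ ≠ w₀ → ∀ T ∈ 𝒞.rels (𝒞.c1 x₀) (𝒞.c1 x₀),
      ∃ v z, 𝒞.c2 x₀ v = 𝒞.c2 x₀ w₀ ∧ 𝒞.c2 x₀ z = 𝒞.c2 x₀ w₀ ∧ 𝒞.c2 v z = T := by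
    intro w₀ hw₀ hne₀ T hT
    obtain ⟨u, hu, rfl⟩ := 𝒞.exists_of_mem_rels (by omega) x₀ hT
    by_cases hux : x₀ = u
    · refine ⟨w₀, w₀, rfl, rfl, ?_⟩
      rw [← hux]
      exact 𝒞.c2_diag (by omega) hw₀
    have hP : ∀ z ∈ univ.filter (fun z => 𝒞.c2 x₀ z = 𝒞.c2 x₀ w₀), 𝒞.c1 z = 𝒞.c1 x₀ := by
      intro z hz
      rw [mem_filter] at hz
      rw [(𝒞.c1_of_c2 (by omega) hz.2).2, hw₀]
    obtain ⟨v, hv, z, hz, hvz⟩ := occurs 𝒞 (by omega) hDbig hu hP hP (by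
      have a1 := hval x₀ w₀ rfl hw₀ hne₀
      have a2 := hval x₀ u rfl hu hux
      change 4 * n ^ 3 < 𝒞.val x₀ (𝒞.c2 x₀ w₀) * (𝒞.val x₀ (𝒞.c2 x₀ u) *
        𝒞.val x₀ (𝒞.c2 x₀ w₀) * 2 ^ (m - 5))
      set k := 𝒞.val x₀ (𝒞.c2 x₀ w₀)
      set l := 𝒞.val x₀ (𝒞.c2 x₀ u)
      have hk : 0 < k := 𝒞.val_pos _ _
      have hl : 0 < l := 𝒞.val_pos _ _
      calc 4 * n ^ 3 = 4 * (n * (n * n)) := by ring
        _ ≤ 4 * ((2 ^ G * k) * ((2 ^ G * l) * (2 ^ G * k))) :=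
          Nat.mul_le_mul_left _ (Nat.mul_le_mul a1 (Nat.mul_le_mul a2 a1))
        _ = (k * (l * k)) * (4 * (2 ^ G) ^ 3) := by ring
        _ < (k * (l * k)) * 2 ^ (m - 5) :=
          Nat.mul_lt_mul_of_pos_left hpow (Nat.mul_pos hk (Nat.mul_pos hl hk))
        _ = k * (l * k * 2 ^ (m - 5)) := by ring)
    rw [mem_filter] at hv hz
    exact ⟨v, z, hv.2, hz.2, hvz⟩
  -- the transposed colour over `x₀`
  obtain ⟨e, he⟩ := 𝒞.ext1 (show 2 ≤ m by omega) hz₀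
  have hze : 𝒞.c2 z₀ x₀ = 𝒞.c2 x₀ (e x₀) := he x₀
  have hex : x₀ ≠ e x₀ := by
    intro h
    exact hne ((𝒞.eq_of_c2 (by omega) hze).2 h).symm
  have hec : 𝒞.c1 (e x₀) = 𝒞.c1 x₀ := by rw [← (𝒞.c1_of_c2 (by omega) (he x₀)).2]
  obtain ⟨m₁, rfl⟩ : ∃ m₁, m = m₁ + 1 := ⟨m - 1, by omega⟩
  rcases dich 𝒞 (by omega) hz₀ (hocc z₀ hz₀ hne) (by
    rw [hze]; exact hocc _ hec hex) with ⟨T, hT, hTd, uR, uL⟩ | hB
  · -- case (A)
    obtain ⟨M, hM⟩ : ∃ M, m₁ + 1 = M + (G + 6) + 2 := ⟨m₁ + 1 - (G + 8), by omega⟩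
    clear hocc he ih
    revert 𝒞
    rw [hM]
    intro 𝒞 hA hX h2 hr n hn r hrdef hrG hval hz₀' hz₀ hDbig hze hec hT hTd uR uL
    have hM2 : 1000 * G + 10005 ≤ M := by omega
    have hcX : 𝒞.cls (𝒞.c1 x₀) ⊆ X := fun a ha => hX _ _ ((𝒞.mem_cls _ _).1 ha).symm hx₀
    have hrb : RB (𝒞.cls (𝒞.c1 x₀)) (2 ^ G + 1) M (G + 6 + 2) 𝒞 := by
      refine rb_of_ah (by omega) (G + 6 + 2) 𝒞 (AH.subset hcX (AH.mono (by omega) hA)) ?_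
      intro a b hab ha
      rw [𝒞.mem_cls] at ha ⊢
      rw [← hab, ha]
    obtain ⟨lab, hlab⟩ := exists_lab 𝒞 (by omega) (R := 𝒞.c2 x₀ z₀) (fun v h =>
      hne ((𝒞.eq_of_c2 (by omega) h).1 rfl))
    have Gr : TG (m := M + (G + 6)) 𝒞 (𝒞.c2 x₀ z₀) T lab (𝒞.c1 x₀) (2 ^ (M - 5)) (2 ^ G) M :=
      { hm := by omega
        hMm := by omega
        big := big_of hD (by omega)
        hR := (𝒞.mem_rels _ _ _).2 ⟨x₀, z₀, rfl, hz₀, rfl⟩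
        hT := hT
        hlab := hlab
        uR := uR
        uL := uL
        vR := by
          intro v hv
          have := hval x₀ z₀ rfl hz₀ hne
          rwa [𝒞.val_eq (by omega) hv.symm] at this
        vT := by
          intro v hv
          obtain ⟨u, hu, rfl⟩ := 𝒞.exists_of_mem_rels (by omega) x₀ hT
          have hxu : x₀ ≠ u := by
            rintro rfl
            exact hTd rfl
          have := hval x₀ u rfl hu hxu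
          rwa [𝒞.val_eq (by omega) hv.symm] at this }
    have fin := hCore V ι M (G + 6) (G + 10) (2 ^ G + 1) (2 ^ G) (2 ^ (M - 5)) 𝒞 (𝒞.c1 x₀)
      (𝒞.c2 x₀ z₀) T lab Gr (by omega) (by omega) (by omega) (Nat.le_add_left _ _)
      (by
        have h0 : 0 < 2 ^ G := Nat.pow_pos (by norm_num)
        rw [pow_add]
        omega)
      (Nat.one_le_pow _ _ (by norm_num)) (Nat.pow_le_pow_right (by norm_num) (by omega))
      (Nat.pow_le_pow_right (by norm_num) (by omega)) ⟨x₀, (𝒞.mem_cls _ _).2 rfl⟩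
      hrb
    have h0 : 1 < 2 ^ G := Nat.one_lt_two_pow (by omega)
    rw [pow_add] at fin
    omega
  · -- case (B)
    have hstep : ∀ w₀, 𝒞.c1 w₀ = 𝒞.c1 x₀ →
        3 * r ≤ 2 * ((𝒞.fix x₀).rels (𝒞.c2 x₀ w₀) (𝒞.c2 x₀ w₀)).card + 1 → False := by
      intro w₀ hw₀ h3
      have hr3 : 3 ≤ r := Gro.three_rels 𝒞 (by omega) h2
      have hc2 : 2 ≤ ((𝒞.fix x₀).cls (𝒞.c2 x₀ w₀)).card := two_le_of_rels _ _ (by omega)
      have hfc : (𝒞.fix x₀).c1 w₀ = 𝒞.c2 x₀ w₀ := 𝒞.fix_c1 (by omega) x₀ w₀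
      rw [← hfc] at hc2 h3
      refine ih m₁ (𝒞.fix x₀) X w₀ (i + 1) (by omega) (hA.2 x₀ hx₀) (Closed.fix (by omega) hX x₀)
        (hX _ _ hw₀.symm hx₀) hc2 (by omega) ?_
      calc 3 * 4 ^ (i + 1) = 4 * (3 * 4 ^ i) := by ring
        _ ≤ 4 * (3 ^ i * r) := Nat.mul_le_mul_left _ hr
        _ = 3 ^ i * (4 * r) := by ring
        _ ≤ 3 ^ i * (3 * ((𝒞.fix x₀).rels ((𝒞.fix x₀).c1 w₀) ((𝒞.fix x₀).c1 w₀)).card) :=
          Nat.mul_le_mul_left _ (by omega)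
        _ = 3 ^ (i + 1) * ((𝒞.fix x₀).rels ((𝒞.fix x₀).c1 w₀) ((𝒞.fix x₀).c1 w₀)).card := by ring
    by_cases hcase : 3 * r ≤ 2 * ((𝒞.fix x₀).rels (𝒞.c2 x₀ z₀) (𝒞.c2 x₀ z₀)).card + 1
    · exact hstep z₀ hz₀ hcase
    · refine hstep (e x₀) hec ?_
      rw [← hze]
      omega

/-- **PHASE** -/
theorem phase (hCore : CoreStmt) (hD : DegStmt) {G : ℕ} (hG : 1 ≤ G) (𝒞 : Cfg V ι m)
    {X : Finset V} (hX : Closed X 𝒞) (hm : 1004 * G + 10013 ≤ m) (hA : AH X G (4 * G + 8) m 𝒞)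
    {x : V} (hx : x ∈ X) (h2 : 2 ≤ (𝒞.cls (𝒞.c1 x)).card) : False := by
  refine phase_aux hCore hD hG (3 * G) m 𝒞 X x 0 (by omega) (AH.mono (by omega) hA) hX hx h2
    (by omega) ?_
  have := Gro.three_rels 𝒞 (by omega) h2
  omega

end Vale.Agent.P319.S2.PH
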